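import Vale.Agent.P166.Haar2.Assembly.Chain
import Vale.Agent.P166.Haar2.Rot.Main
import Vale.Agent.P166.Haar2.SlotDev.Final
import Vale.Agent.P166.Haar2.Dev.Main
import Vale.Agent.P166.Haar2.Cavity.Step
import Vale.Agent.P166.Haar2.Fresh.Main
import Vale.Agent.P166.Haar2.Stationary.Main
import Vale.Agent.P166.Haar2.Lower.Main
import Vale.Agent.P157.Full.Concave.Main
import Vale.Agent.P157.Full.Deriv

open MeasureTheory Filter
open scoped Topology

namespace Vale.Agent.Results.P166.GeneralFormula

open Vale.Agent.P166 (orthHaar pressure Admissible)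
open Vale.Agent.P166.Haar2

/-- The limiting pressure of orthogonally invariant Ising spins for every compactly supported
limiting spectral law at every temperature: the infimum over overlap paths of the supremum over
field paths of the energy functional plus the entropy term. -/
theorem result (β : ℝ) (hβ : 0 < β) (μ : Measure ℝ) [IsProbabilityMeasure μ]
    (hμ : IsCompact μ.support) :
    (upperValues β μ).Nonempty ∧ BddBelow (upperValues β μ) ∧
      (∃ lam, Admissible μ lam) ∧
      ∀ lam, Admissible μ lam →
        Tendsto (fun N => ∫ U, |pressure β (lam N) U - ell β μ| ∂orthHaar N) atTop (𝓝 0) := by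
  have hFA := Paths.funA atomFacts
  have hFL := Algebra.fieldLip atomFacts
  have hFr := Fresh.fresh Assembly.blocks
  have hC := Vale.Agent.P157.Parisi.Full.Concave.concave_spec
    Vale.Agent.P157.Parisi.Full.siteDeriv_spec
  have hS := Vale.Agent.P157.Parisi.Full.Concave.siteSlope_spec
  have hSt := Vale.Agent.P166.Haar2.stationary Cavity.step Cavity.demote hFr cascValue taylor siteTaylor hFL
    Assembly.blocks
  have hL : LowerStmt := lower (Assembly.base_of rotIdentity dev) Cavity.step Cavity.demote hFr
    cascValue value compr hSt hFA hFL Assembly.blocks pertShape hC hS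
  obtain ⟨h1, h2, h3⟩ := Assembly.final_of rotIdentity slotDev hL β hβ μ inferInstance hμ
  exact ⟨h1, h2, ⟨_, Final.qseq_admissible hμ⟩, h3⟩

end Vale.Agent.Results.P166.GeneralFormula
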